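import Mathlib

namespace Vale.Agent.P015

open GaussianInt

/-- norm of `z * star v` in coordinates -/
lemma norm_mul_star_eq (z v : GaussianInt) :
    z.norm * v.norm = (z * star v).re ^ 2 + (z * star v).im ^ 2 := by
  have h : (z * star v).norm = z.norm * v.norm := by
    rw [Zsqrtd.norm_mul, Zsqrtd.norm_conj]
  rw [← h, Zsqrtd.norm_def]
  ring

/-- The key barrier lemma: a Gaussian integer `z` whose coordinates along / across the direction `v`
are `X * N(v) + a` and `b`, where `a^2 + b^2` divides `X`, is divisible by `z - X v`, hence not prime. -/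
lemma not_prime_of_barrier (v z : GaussianInt) (X a b : ℤ) (hX : 0 < X) (hv : 0 < v.norm)
    (hre : (z * star v).re = X * v.norm + a) (him : (z * star v).im = b)
    (ha : 2 * v.norm ≤ a) (hdvd : (a ^ 2 + b ^ 2) ∣ X) : ¬ Prime z := by
  intro hp
  set s : GaussianInt := z - (X : GaussianInt) * v with hs
  have hvv : v * star v = ((v.norm : ℤ) : GaussianInt) := (Zsqrtd.norm_eq_mul_conj v).symm
  have hsv : s * star v = z * star v - ((X * v.norm : ℤ) : GaussianInt) := by
    rw [hs, sub_mul, mul_assoc, hvv]; push_cast; ring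
  have hsre : (s * star v).re = a := by
    rw [hsv, Zsqrtd.re_sub, Zsqrtd.re_intCast, hre]; ring
  have hsim : (s * star v).im = b := by
    rw [hsv, Zsqrtd.im_sub, Zsqrtd.im_intCast, him]; ring
  have hns : s.norm * v.norm = a ^ 2 + b ^ 2 := by
    rw [norm_mul_star_eq, hsre, hsim]
  have hnz : z.norm * v.norm = (X * v.norm + a) ^ 2 + b ^ 2 := by
    rw [norm_mul_star_eq, hre, him]
  have h1 : s.norm ∣ X := Dvd.dvd.trans (Dvd.intro _ hns) hdvd
  have h2 : s ∣ ((s.norm : ℤ) : GaussianInt) := by
    rw [Zsqrtd.norm_eq_mul_conj]; exact Dvd.intro _ rfl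
  have h3 : s ∣ (X : GaussianInt) := h2.trans ((Zsqrtd.intCast_dvd_intCast _ _).2 h1)
  have h4 : s ∣ z := by
    have : z = s + (X : GaussianInt) * v := by rw [hs]; ring
    rw [this]
    exact dvd_add (dvd_refl s) (Dvd.dvd.mul_right h3 v)
  obtain ⟨t, ht⟩ := h4
  have hnt : z.norm = s.norm * t.norm := by rw [ht, Zsqrtd.norm_mul]
  rcases hp.irreducible.isUnit_or_isUnit ht with hu | hu
  · have : s.norm = 1 := (Zsqrtd.norm_eq_one_iff' (by norm_num) s).2 hu
    rw [this] at hns
    nlinarith [sq_nonneg b]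
  · have : t.norm = 1 := (Zsqrtd.norm_eq_one_iff' (by norm_num) t).2 hu
    rw [this, mul_one] at hnt
    rw [hnt, hns] at hnz
    have hpos : 0 < X * v.norm := mul_pos hX hv
    nlinarith

end Vale.Agent.P015
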