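import Mathlib

namespace Vale.Agent.P015

open Finset

/-- The barrier modulus: product of all `a^2+b^2` over the box. -/
def barrierX (A0 w H : ℕ) : ℕ :=
  ∏ a ∈ Finset.Icc A0 (A0 + w), ∏ b ∈ Finset.range (H + 1), (a ^ 2 + b ^ 2)

lemma dvd_barrierX {A0 w H a b : ℕ} (ha : A0 ≤ a) (ha' : a ≤ A0 + w) (hb : b ≤ H) :
    a ^ 2 + b ^ 2 ∣ barrierX A0 w H := by
  unfold barrierX
  have h1 : (∏ b ∈ Finset.range (H + 1), (a ^ 2 + b ^ 2)) ∣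
      ∏ a ∈ Finset.Icc A0 (A0 + w), ∏ b ∈ Finset.range (H + 1), (a ^ 2 + b ^ 2) :=
    Finset.dvd_prod_of_mem (fun a => ∏ b ∈ Finset.range (H + 1), (a ^ 2 + b ^ 2))
      (Finset.mem_Icc.2 ⟨ha, ha'⟩)
  have h2 : a ^ 2 + b ^ 2 ∣ ∏ b ∈ Finset.range (H + 1), (a ^ 2 + b ^ 2) :=
    Finset.dvd_prod_of_mem (fun b => a ^ 2 + b ^ 2) (Finset.mem_range.2 (by omega))
  exact h2.trans h1

lemma barrierX_le (A0 w H : ℕ) :
    barrierX A0 w H ≤ ((A0 + w) ^ 2 + H ^ 2) ^ ((w + 1) * (H + 1)) := by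
  unfold barrierX
  have h1 : ∀ a ∈ Finset.Icc A0 (A0 + w), (∏ b ∈ Finset.range (H + 1), (a ^ 2 + b ^ 2))
      ≤ ((A0 + w) ^ 2 + H ^ 2) ^ (H + 1) := by
    intro a ha
    have ha' := (Finset.mem_Icc.1 ha).2
    calc (∏ b ∈ Finset.range (H + 1), (a ^ 2 + b ^ 2))
        ≤ ((A0 + w) ^ 2 + H ^ 2) ^ (Finset.range (H + 1)).card := by
          apply Finset.prod_le_pow_card
          intro b hb
          have hb' : b ≤ H := by have := Finset.mem_range.1 hb; omega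
          exact Nat.add_le_add (Nat.pow_le_pow_left ha' 2) (Nat.pow_le_pow_left hb' 2)
      _ = ((A0 + w) ^ 2 + H ^ 2) ^ (H + 1) := by rw [Finset.card_range]
  calc (∏ a ∈ Finset.Icc A0 (A0 + w), ∏ b ∈ Finset.range (H + 1), (a ^ 2 + b ^ 2))
      ≤ (((A0 + w) ^ 2 + H ^ 2) ^ (H + 1)) ^ (Finset.Icc A0 (A0 + w)).card :=
        Finset.prod_le_pow_card _ _ _ h1
    _ = ((A0 + w) ^ 2 + H ^ 2) ^ ((w + 1) * (H + 1)) := by
        rw [Nat.card_Icc, ← pow_mul]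
        congr 1
        have : A0 + w + 1 - A0 = w + 1 := by omega
        rw [this]; ring

lemma le_barrierX (A0 w H : ℕ) (hA : 2 ≤ A0) : 4 ^ (H + 1) ≤ barrierX A0 w H := by
  unfold barrierX
  have hfac : ∀ a ∈ Finset.Icc A0 (A0 + w), ∀ b ∈ Finset.range (H + 1), 4 ≤ a ^ 2 + b ^ 2 := by
    intro a ha b _
    have ha' := (Finset.mem_Icc.1 ha).1
    have : 2 ^ 2 ≤ a ^ 2 := Nat.pow_le_pow_left (le_trans hA ha') 2
    omega
  have h1 : ∀ a ∈ Finset.Icc A0 (A0 + w), 4 ^ (H + 1) ≤ ∏ b ∈ Finset.range (H + 1), (a ^ 2 + b ^ 2) := by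
    intro a ha
    calc 4 ^ (H + 1) = 4 ^ (Finset.range (H + 1)).card := by rw [Finset.card_range]
      _ ≤ ∏ b ∈ Finset.range (H + 1), (a ^ 2 + b ^ 2) :=
        Finset.pow_card_le_prod _ _ _ (hfac a ha)
  have hmem : A0 ∈ Finset.Icc A0 (A0 + w) := Finset.mem_Icc.2 ⟨le_refl _, by omega⟩
  have hone : ∀ a ∈ Finset.Icc A0 (A0 + w), 1 ≤ ∏ b ∈ Finset.range (H + 1), (a ^ 2 + b ^ 2) := by
    intro a ha
    exact le_trans (Nat.one_le_pow _ _ (by norm_num)) (h1 a ha)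
  calc 4 ^ (H + 1) ≤ ∏ b ∈ Finset.range (H + 1), (A0 ^ 2 + b ^ 2) := h1 A0 hmem
    _ ≤ ∏ a ∈ Finset.Icc A0 (A0 + w), ∏ b ∈ Finset.range (H + 1), (a ^ 2 + b ^ 2) :=
      Finset.single_le_prod' (f := fun a => ∏ b ∈ Finset.range (H + 1), (a ^ 2 + b ^ 2)) hone hmem

end Vale.Agent.P015
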