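import Mathlib
import Vale.Agent.P015.CorridorBound

namespace Vale.Agent.P015

lemma one_le_log_three : (1 : ℝ) ≤ Real.log 3 := by
  rw [Real.le_log_iff_exp_le (by norm_num)]
  have := Real.exp_one_lt_d9
  linarith

lemma corridor_real_bound (A0 w Nn H p : ℕ) (W c : ℝ) (hA : 2 ≤ A0)
    (hc0 : 0 ≤ c) (hc : c * (6 * ((w : ℝ) + 1)) ≤ 1)
    (hH1 : A0 + w ≤ H) (hH2 : 1 ≤ H)
    (hH3 : 2 * W + 1 + 2 * c * Real.log ((Nn : ℝ) + A0 + w + 2) ≤ H)
    (hp1 : barrierX A0 w H * Nn + A0 ≤ p) (hp2 : p ≤ barrierX A0 w H * Nn + A0 + w)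
    (hN : 1 ≤ Nn) :
    W + c * (Real.log (2 + (p : ℝ)) / Real.log (2 + Real.log (2 + (p : ℝ)))) ≤ H := by
  set X := barrierX A0 w H with hXdef
  have hX1 : 4 ^ (H + 1) ≤ X := le_barrierX A0 w H hA
  have hX2 : X ≤ ((A0 + w) ^ 2 + H ^ 2) ^ ((w + 1) * (H + 1)) := barrierX_le A0 w H
  have hXpos : 1 ≤ X := le_trans (Nat.one_le_pow _ _ (by norm_num)) hX1
  set L := Real.log (2 + (p : ℝ)) with hL
  set l := Real.log (2 + (H : ℝ)) with hl
  have hHr : (1 : ℝ) ≤ H := by exact_mod_cast hH2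
  have hl1 : 1 ≤ l := by
    refine le_trans one_le_log_three ?_
    apply Real.log_le_log (by norm_num)
    linarith
  -- lower bound for L
  have hXp : X ≤ p := by
    calc X = X * 1 := (mul_one X).symm
      _ ≤ X * Nn := Nat.mul_le_mul_left X hN
      _ ≤ p := by omega
  have hLlow : (H : ℝ) ≤ L := by
    have h4 : ((4 : ℝ)) ^ (H + 1) ≤ 2 + (p : ℝ) := by
      have : ((4 ^ (H + 1) : ℕ) : ℝ) ≤ (p : ℝ) := by exact_mod_cast le_trans hX1 hXp
      push_cast at this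
      linarith
    have h5 : Real.log ((4 : ℝ) ^ (H + 1)) ≤ L := Real.log_le_log (by positivity) h4
    rw [Real.log_pow] at h5
    have h6 : (1 : ℝ) ≤ Real.log 4 :=
      le_trans one_le_log_three (Real.log_le_log (by norm_num) (by norm_num))
    have h7 : ((H + 1 : ℕ) : ℝ) * 1 ≤ ((H + 1 : ℕ) : ℝ) * Real.log 4 :=
      mul_le_mul_of_nonneg_left h6 (by positivity)
    push_cast at h7 h5
    linarith
  -- upper bound for L
  set C1 : ℝ := (Nn : ℝ) + A0 + w + 2 with hC1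
  have hC1pos : 0 < C1 := by positivity
  have hC1one : 1 ≤ C1 := by
    have : (0 : ℝ) ≤ (Nn : ℝ) + A0 + w := by positivity
    linarith
  have hlogC1 : 0 ≤ Real.log C1 := Real.log_nonneg hC1one
  have hpC : (2 : ℝ) + p ≤ C1 * X := by
    have hnat : 2 + p ≤ (Nn + A0 + w + 2) * X := by
      have h1 : 2 + p ≤ 2 + (X * Nn + A0 + w) := by omega
      have h2 : 2 + (X * Nn + A0 + w) ≤ (Nn + A0 + w + 2) * X := by nlinarith
      exact le_trans h1 h2
    have : ((2 + p : ℕ) : ℝ) ≤ (((Nn + A0 + w + 2) * X : ℕ) : ℝ) := by exact_mod_cast hnat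
    push_cast at this
    rw [hC1]; linarith
  have hXr : (0 : ℝ) < X := by exact_mod_cast hXpos
  have hlogX : Real.log X ≤ ((w : ℝ) + 1) * ((H : ℝ) + 1) * (3 * l) := by
    have hB : (((A0 + w) ^ 2 + H ^ 2 : ℕ) : ℝ) ≤ (2 + (H : ℝ)) ^ 3 := by
      have hnat : (A0 + w) ^ 2 + H ^ 2 ≤ (2 + H) ^ 3 := by
        have : (A0 + w) ^ 2 ≤ H ^ 2 := Nat.pow_le_pow_left hH1 2
        nlinarith
      have : (((A0 + w) ^ 2 + H ^ 2 : ℕ) : ℝ) ≤ (((2 + H) ^ 3 : ℕ) : ℝ) := by exact_mod_cast hnat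
      push_cast at this ⊢
      linarith
    have hBpos : (0 : ℝ) < (((A0 + w) ^ 2 + H ^ 2 : ℕ) : ℝ) := by
      have : 0 < (A0 + w) ^ 2 + H ^ 2 := by positivity
      exact_mod_cast this
    have h1 : (X : ℝ) ≤ (((A0 + w) ^ 2 + H ^ 2 : ℕ) : ℝ) ^ ((w + 1) * (H + 1)) := by
      exact_mod_cast hX2
    have h2 : Real.log X ≤ Real.log ((((A0 + w) ^ 2 + H ^ 2 : ℕ) : ℝ) ^ ((w + 1) * (H + 1))) :=
      Real.log_le_log hXr h1
    rw [Real.log_pow] at h2
    have h3 : Real.log (((A0 + w) ^ 2 + H ^ 2 : ℕ) : ℝ) ≤ 3 * l := by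
      have := Real.log_le_log hBpos hB
      rw [Real.log_pow] at this
      push_cast at this ⊢
      linarith
    have h4 : (((w + 1) * (H + 1) : ℕ) : ℝ) * Real.log (((A0 + w) ^ 2 + H ^ 2 : ℕ) : ℝ)
        ≤ (((w + 1) * (H + 1) : ℕ) : ℝ) * (3 * l) :=
      mul_le_mul_of_nonneg_left h3 (by positivity)
    have h5 : (((w + 1) * (H + 1) : ℕ) : ℝ) = ((w : ℝ) + 1) * ((H : ℝ) + 1) := by push_cast; ring
    rw [h5] at h4 h2
    linarith
  have hLup : L ≤ Real.log C1 + ((w : ℝ) + 1) * ((H : ℝ) + 1) * (3 * l) := by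
    have h1 : L ≤ Real.log (C1 * X) := Real.log_le_log (by positivity) hpC
    rw [Real.log_mul (ne_of_gt hC1pos) (ne_of_gt hXr)] at h1
    linarith
  have hL0 : 0 ≤ L := le_trans (by positivity) hLlow
  have hden : l ≤ Real.log (2 + L) := by
    apply Real.log_le_log (by positivity)
    linarith
  have hlpos : 0 < l := lt_of_lt_of_le one_pos hl1
  have hF : L / Real.log (2 + L) ≤ Real.log C1 + 3 * ((w : ℝ) + 1) * ((H : ℝ) + 1) := by
    calc L / Real.log (2 + L) ≤ L / l := div_le_div_of_nonneg_left hL0 hlpos hden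
      _ ≤ (Real.log C1 + ((w : ℝ) + 1) * ((H : ℝ) + 1) * (3 * l)) / l :=
          div_le_div_of_nonneg_right hLup hlpos.le
      _ = Real.log C1 / l + 3 * ((w : ℝ) + 1) * ((H : ℝ) + 1) := by
          field_simp
      _ ≤ Real.log C1 + 3 * ((w : ℝ) + 1) * ((H : ℝ) + 1) := by
          have : Real.log C1 / l ≤ Real.log C1 := div_le_self hlogC1 hl1
          linarith
  have hcF : c * (L / Real.log (2 + L)) ≤ c * Real.log C1 + ((H : ℝ) + 1) / 2 := by
    have h1 : c * (L / Real.log (2 + L)) ≤ c * (Real.log C1 + 3 * ((w : ℝ) + 1) * ((H : ℝ) + 1)) :=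
      mul_le_mul_of_nonneg_left hF hc0
    have h2 : c * (6 * ((w : ℝ) + 1)) * (((H : ℝ) + 1) / 2) ≤ 1 * (((H : ℝ) + 1) / 2) :=
      mul_le_mul_of_nonneg_right hc (by positivity)
    nlinarith
  linarith

end Vale.Agent.P015
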