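import Mathlib
import Vale.Agent.P015.Barrier
import Vale.Agent.P015.CorridorReal

namespace Vale.Agent.P015

open GaussianInt

lemma exists_hit (f : ℕ → ℤ) (w P : ℤ) (hstep : ∀ n, f (n + 1) ≤ f n + w) (h0 : f 0 < P)
    (hunb : ∃ n, P ≤ f n) : ∃ n, P ≤ f n ∧ f n < P + w := by
  classical
  let n := Nat.find hunb
  have hn : P ≤ f n := Nat.find_spec hunb
  have hn0 : n ≠ 0 := by
    intro h
    rw [h] at hn
    omega
  obtain ⟨m, hm⟩ := Nat.exists_eq_succ_of_ne_zero hn0
  have hlt : ¬ P ≤ f m := Nat.find_min hunb (by omega)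
  refine ⟨n, hn, ?_⟩
  have := hstep m
  rw [hm]
  simp only [Nat.succ_eq_add_one]
  omega

theorem corridor_general (v : GaussianInt) (hv : v ≠ 0) (D : ℝ) (hD : 0 ≤ D) (c W : ℝ)
    (hc0 : 0 ≤ c) (hc : c * (6 * (D * Real.sqrt (v.norm : ℝ) + 2)) ≤ 1) :
    ¬ ∃ z : ℕ → GaussianInt, Function.Injective z ∧ (∀ n, Prime (z n)) ∧
      (∀ n, ‖((z (n + 1) : ℂ) - (z n : ℂ))‖ ≤ D) ∧
      (∀ n, |((z n * star v).im : ℝ)| ≤ W + c * (Real.log (2 + |((z n * star v).re : ℝ)|) /
        Real.log (2 + Real.log (2 + |((z n * star v).re : ℝ)|)))) := by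
  rintro ⟨z, hinj, hprime, hstep, hreg⟩
  have hNv : 0 < v.norm := GaussianInt.norm_pos.2 hv
  obtain ⟨Nn, hNn⟩ : ∃ Nn : ℕ, (Nn : ℤ) = v.norm := ⟨v.norm.toNat, Int.toNat_of_nonneg hNv.le⟩
  have hNn1 : 1 ≤ Nn := by
    have : (0 : ℤ) < (Nn : ℤ) := by rw [hNn]; exact hNv
    exact_mod_cast this
  set w : ℕ := ⌈D * Real.sqrt (v.norm : ℝ)⌉₊ with hw
  have hwle : D * Real.sqrt (v.norm : ℝ) ≤ w := Nat.le_ceil _
  have hwlt : (w : ℝ) < D * Real.sqrt (v.norm : ℝ) + 1 :=
    Nat.ceil_lt_add_one (mul_nonneg hD (Real.sqrt_nonneg _))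
  have hcw : c * (6 * ((w : ℝ) + 1)) ≤ 1 := by
    refine le_trans ?_ hc
    apply mul_le_mul_of_nonneg_left _ hc0
    linarith
  set α : ℕ → ℤ := fun n => (z n * star v).re with hα
  set β : ℕ → ℤ := fun n => (z n * star v).im with hβ
  -- step bound
  have hαstep : ∀ n, |α (n + 1) - α n| ≤ (w : ℤ) := by
    intro n
    set d := z (n + 1) - z n with hd
    have h1 : (d * star v).re = α (n + 1) - α n := by
      simp only [hd, hα, sub_mul, Zsqrtd.re_sub]
    have h2 : d.norm * v.norm = (d * star v).re ^ 2 + (d * star v).im ^ 2 := norm_mul_star_eq d v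
    have h3 : (d.norm : ℝ) ≤ D ^ 2 := by
      rw [GaussianInt.intCast_real_norm, Complex.normSq_eq_norm_sq, hd, GaussianInt.toComplex_sub]
      exact pow_le_pow_left₀ (_root_.norm_nonneg _) (hstep n) 2
    have h4 : ((α (n + 1) - α n : ℤ) : ℝ) ^ 2 ≤ D ^ 2 * (v.norm : ℝ) := by
      have h5 : ((d * star v).re : ℝ) ^ 2 ≤ (d.norm : ℝ) * (v.norm : ℝ) := by
        have : (d.norm : ℝ) * (v.norm : ℝ) = ((d * star v).re : ℝ) ^ 2 + ((d * star v).im : ℝ) ^ 2 := by
          exact_mod_cast h2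
        rw [this]
        nlinarith [sq_nonneg ((d * star v).im : ℝ)]
      rw [← h1]
      refine le_trans h5 ?_
      apply mul_le_mul_of_nonneg_right h3
      exact_mod_cast hNv.le
    have h6 : |((α (n + 1) - α n : ℤ) : ℝ)| ≤ Real.sqrt (D ^ 2 * (v.norm : ℝ)) := Real.abs_le_sqrt h4
    have h7 : Real.sqrt (D ^ 2 * (v.norm : ℝ)) = D * Real.sqrt (v.norm : ℝ) := by
      rw [Real.sqrt_mul (sq_nonneg D), Real.sqrt_sq hD]
    rw [h7] at h6
    have h8 : |((α (n + 1) - α n : ℤ) : ℝ)| ≤ (w : ℝ) := le_trans h6 hwle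
    have h9 : ((|α (n + 1) - α n| : ℤ) : ℝ) ≤ ((w : ℤ) : ℝ) := by
      push_cast
      push_cast at h8
      exact h8
    exact_mod_cast h9
  set f : ℕ → ℤ := fun n => |α n| with hf
  have hfstep : ∀ n, f (n + 1) ≤ f n + w := by
    intro n
    have h1 := hαstep n
    have h2 : |α (n + 1)| ≤ |α n| + |α (n + 1) - α n| := by
      have := abs_add_le (α n) (α (n + 1) - α n)
      simpa using this
    simp only [hf]
    linarith
  -- unboundedness
  have hunb : ∀ P : ℤ, ∃ n, P ≤ f n := by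
    by_contra hcon
    push Not at hcon
    obtain ⟨P, hP⟩ := hcon
    have hP0 : 0 < P := lt_of_le_of_lt (abs_nonneg _) (hP 0)
    set B : ℝ := W + c * (Real.log (2 + (P : ℝ)) / Real.log 2) with hB
    have hβb : ∀ n, |(β n : ℝ)| ≤ B := by
      intro n
      refine le_trans (hreg n) ?_
      have hx0 : (0 : ℝ) ≤ |((z n * star v).re : ℝ)| := abs_nonneg _
      have hxP : |((z n * star v).re : ℝ)| ≤ (P : ℝ) := by
        have : ((f n : ℤ) : ℝ) ≤ (P : ℝ) := by exact_mod_cast (hP n).le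
        simpa [hf, hα] using this
      set x := |((z n * star v).re : ℝ)| with hx
      have hlog2 : 0 < Real.log 2 := Real.log_pos (by norm_num)
      have hL0 : Real.log 2 ≤ Real.log (2 + x) := Real.log_le_log (by norm_num) (by linarith)
      have hL1 : Real.log (2 + x) ≤ Real.log (2 + (P : ℝ)) := Real.log_le_log (by linarith) (by linarith)
      have hden : Real.log 2 ≤ Real.log (2 + Real.log (2 + x)) :=
        Real.log_le_log (by norm_num) (by linarith)
      have : Real.log (2 + x) / Real.log (2 + Real.log (2 + x)) ≤ Real.log (2 + (P : ℝ)) / Real.log 2 := by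
        calc Real.log (2 + x) / Real.log (2 + Real.log (2 + x))
            ≤ Real.log (2 + x) / Real.log 2 :=
              div_le_div_of_nonneg_left (by linarith) hlog2 hden
          _ ≤ Real.log (2 + (P : ℝ)) / Real.log 2 := div_le_div_of_nonneg_right hL1 hlog2.le
      have := mul_le_mul_of_nonneg_left this hc0
      linarith
    set Bn : ℤ := ⌈B⌉ with hBn
    let g : ℕ → ℤ × ℤ := fun n => (α n, β n)
    have hginj : Function.Injective g := by
      intro n m hnm
      have h1 : α n = α m := congrArg Prod.fst hnm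
      have h2 : β n = β m := congrArg Prod.snd hnm
      have h3 : z n * star v = z m * star v := Zsqrtd.ext h1 h2
      have h4 : star v ≠ 0 := by
        intro h
        apply hv
        have := congrArg star h
        simpa using this
      exact hinj (mul_right_cancel₀ h4 h3)
    have hrange : Set.range g ⊆ (Set.Icc (-P) P) ×ˢ (Set.Icc (-Bn) Bn) := by
      rintro _ ⟨n, rfl⟩
      have h1 : |α n| < P := hP n
      have h2 : |(β n : ℝ)| ≤ B := hβb n
      have h3 : |β n| ≤ Bn := by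
        have : ((|β n| : ℤ) : ℝ) ≤ (Bn : ℝ) := by
          push_cast
          exact le_trans h2 (Int.le_ceil B)
        exact_mod_cast this
      rw [abs_lt] at h1
      rw [abs_le] at h3
      exact ⟨⟨h1.1.le, h1.2.le⟩, ⟨h3.1, h3.2⟩⟩
    exact (Set.infinite_range_of_injective hginj)
      (((Set.finite_Icc (-P) P).prod (Set.finite_Icc (-Bn) Bn)).subset hrange)
  -- choice of H
  set A0 : ℕ := 2 * Nn with hA0
  have hA02 : 2 ≤ A0 := by omega
  obtain ⟨H0, hH0⟩ := exists_nat_ge (2 * W + 1 + 2 * c * Real.log ((Nn : ℝ) + A0 + w + 2))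
  set H : ℕ := H0 + (A0 + w) + 1 + (f 0).toNat with hH
  have hH1 : A0 + w ≤ H := by omega
  have hH2 : 1 ≤ H := by omega
  have hH3 : 2 * W + 1 + 2 * c * Real.log ((Nn : ℝ) + A0 + w + 2) ≤ H := by
    refine le_trans hH0 ?_
    have : H0 ≤ H := by omega
    exact_mod_cast this
  set X : ℕ := barrierX A0 w H with hX
  have hXlow : 4 ^ (H + 1) ≤ X := le_barrierX A0 w H hA02
  have hXH : H < X := by
    have h1 : H + 1 < 4 ^ (H + 1) := Nat.lt_pow_self (by norm_num)
    omega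
  have hXpos : 0 < X := by omega
  have hf0 : f 0 < ((X * Nn + A0 : ℕ) : ℤ) := by
    have h1 : f 0 ≤ ((f 0).toNat : ℤ) := Int.self_le_toNat _
    have h2 : (f 0).toNat < X * Nn + A0 := by
      have : X * 1 ≤ X * Nn := Nat.mul_le_mul_left X hNn1
      omega
    have h3 : (((f 0).toNat : ℕ) : ℤ) < ((X * Nn + A0 : ℕ) : ℤ) := by exact_mod_cast h2
    omega
  obtain ⟨n, hn1, hn2⟩ := exists_hit f w ((X * Nn + A0 : ℕ) : ℤ) hfstep hf0 (hunb _)
  -- natural number version of f n
  obtain ⟨p, hp⟩ : ∃ p : ℕ, (p : ℤ) = f n := ⟨(f n).toNat, Int.toNat_of_nonneg (abs_nonneg _)⟩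
  have hp1 : X * Nn + A0 ≤ p := by
    have : ((X * Nn + A0 : ℕ) : ℤ) ≤ (p : ℤ) := by rw [hp]; exact hn1
    exact_mod_cast this
  have hp2 : p ≤ X * Nn + A0 + w := by
    have : (p : ℤ) < ((X * Nn + A0 : ℕ) : ℤ) + w := by rw [hp]; exact hn2
    have : (p : ℤ) < ((X * Nn + A0 + w : ℕ) : ℤ) := by push_cast; push_cast at this; exact this
    have : p < X * Nn + A0 + w := by exact_mod_cast this
    omega
  have hbound := corridor_real_bound A0 w Nn H p W c hA02 hc0 hcw hH1 hH2 hH3 hp1 hp2 hNn1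
  have hpr : |((z n * star v).re : ℝ)| = (p : ℝ) := by
    have : ((f n : ℤ) : ℝ) = (p : ℝ) := by rw [← hp]; simp
    rw [← this]
    simp [hf, hα]
  have hβH : |β n| ≤ (H : ℤ) := by
    have h1 := hreg n
    rw [hpr] at h1
    have h2 : |((z n * star v).im : ℝ)| ≤ (H : ℝ) := le_trans h1 hbound
    have : ((|β n| : ℤ) : ℝ) ≤ ((H : ℤ) : ℝ) := by
      push_cast
      exact h2
    exact_mod_cast this
  -- the offsets
  set a : ℕ := p - X * Nn with ha
  have haA : A0 ≤ a := by omega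
  have haw : a ≤ A0 + w := by omega
  have hpa : (p : ℤ) = (X : ℤ) * v.norm + (a : ℤ) := by
    rw [← hNn]
    have : p = X * Nn + a := by omega
    exact_mod_cast this
  have hbn : (β n).natAbs ≤ H := by
    have : ((β n).natAbs : ℤ) ≤ (H : ℤ) := by rw [Int.natCast_natAbs]; exact hβH
    exact_mod_cast this
  have hdvdN : a ^ 2 + (β n).natAbs ^ 2 ∣ X := dvd_barrierX haA haw hbn
  have hdvd : ((a : ℤ) ^ 2 + (β n) ^ 2) ∣ (X : ℤ) := by
    have h1 : ((a ^ 2 + (β n).natAbs ^ 2 : ℕ) : ℤ) ∣ (X : ℤ) := Int.natCast_dvd_natCast.2 hdvdN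
    have h2 : ((a ^ 2 + (β n).natAbs ^ 2 : ℕ) : ℤ) = (a : ℤ) ^ 2 + (β n) ^ 2 := by
      push_cast
      rw [sq_abs]
    rwa [h2] at h1
  have hXz : (0 : ℤ) < (X : ℤ) := by exact_mod_cast hXpos
  have ha2 : 2 * v.norm ≤ (a : ℤ) := by
    rw [← hNn]
    have : 2 * Nn ≤ a := haA
    exact_mod_cast this
  rcases le_total 0 (α n) with hsign | hsign
  · have hre : (z n * star v).re = (X : ℤ) * v.norm + (a : ℤ) := by
      rw [← hpa, hp]
      simp only [hf]
      exact (abs_of_nonneg hsign).symm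
    exact not_prime_of_barrier v (z n) X a (β n) hXz hNv hre rfl ha2 hdvd (hprime n)
  · have hre : (-(z n) * star v).re = (X : ℤ) * v.norm + (a : ℤ) := by
      rw [← hpa, hp]
      simp only [hf, neg_mul, Zsqrtd.re_neg]
      exact (abs_of_nonpos hsign).symm
    have him : (-(z n) * star v).im = -(β n) := by
      simp only [neg_mul, Zsqrtd.im_neg, hβ]
    have hdvd' : ((a : ℤ) ^ 2 + (-(β n)) ^ 2) ∣ (X : ℤ) := by
      rw [neg_sq]; exact hdvd
    exact not_prime_of_barrier v (-(z n)) X a (-(β n)) hXz hNv hre him ha2 hdvd' (hprime n).neg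

end Vale.Agent.P015
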