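import Mathlib

/-! Bit-mask dynamic programme for monotone walks in the sieved Gaussian integers. -/

namespace Vale.Agent.P015.Mono

/-- `p` does not divide `x^2+y^2`. -/
def okp (p x y : ℕ) : Bool := (x * x + y * y) % p != 0

/-- small pattern: bit `x` (`x < n`) is set iff `p` does not divide `x^2+(s-x)^2`. -/
def pat (p s : ℕ) : ℕ → ℕ
  | 0 => 0
  | x + 1 => pat p s x ||| ((if okp p x (s - x) then 1 else 0) <<< x)

/-- periodic extension by doubling. -/
def dbl (p : ℕ) (a : ℕ) : ℕ → ℕ
  | 0 => a
  | k + 1 => dbl p a k ||| (dbl p a k <<< (p * 2 ^ k))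

def maskp (p k s : ℕ) : ℕ := dbl p (pat p s p) k

def A (s : ℕ) : ℕ :=
  maskp 2 17 s &&& maskp 3 16 s &&& maskp 5 16 s &&& maskp 13 14 s &&& maskp 17 14 s &&&
    maskp 29 13 s

def aliveN (x y : ℕ) : Bool :=
  okp 2 x y && okp 3 x y && okp 5 x y && okp 13 x y && okp 17 x y && okp 29 x y

lemma testBit_bit_shift (b : Bool) (x i : ℕ) :
    ((if b then 1 else 0 : ℕ) <<< x).testBit i = (decide (i = x) && b) := by
  rw [Nat.testBit_shiftLeft]
  cases b with
  | false => simp
  | true =>
    by_cases h : i = x
    · subst h; simp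
    · by_cases h2 : x ≤ i
      · have h3 : i - x ≠ 0 := by omega
        have : Nat.testBit 1 (i - x) = false := by
          cases hb : Nat.testBit 1 (i - x) with
          | false => rfl
          | true => exact absurd (Nat.testBit_one_eq_true_iff_self_eq_zero.1 hb) h3
        simp [h, this]
      · simp [h, h2]

lemma testBit_pat (p s n x : ℕ) :
    (pat p s n).testBit x = (decide (x < n) && okp p x (s - x)) := by
  induction n with
  | zero => simp [pat]
  | succ n ih =>
    rw [pat, Nat.testBit_or, ih, testBit_bit_shift]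
    by_cases h1 : x < n
    · have h2 : x ≠ n := by omega
      have h3 : x < n + 1 := by omega
      simp [h1, h2, h3]
    · by_cases h2 : x = n
      · subst h2; simp
      · have h3 : ¬ x < n + 1 := by omega
        simp [h1, h2, h3]

lemma testBit_dbl (p a : ℕ) (ha : ∀ i, p ≤ i → a.testBit i = false) (k x : ℕ) :
    (dbl p a k).testBit x = (decide (x < p * 2 ^ k) && a.testBit (x % p)) := by
  induction k generalizing x with
  | zero =>
    simp only [dbl, pow_zero, mul_one]
    by_cases h : x < p
    · simp [h, Nat.mod_eq_of_lt h]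
    · simp [h, ha x (by omega)]
  | succ k ih =>
    rw [dbl, Nat.testBit_or, Nat.testBit_shiftLeft, ih, ih]
    have hpow : p * 2 ^ (k + 1) = p * 2 ^ k + p * 2 ^ k := by rw [pow_succ]; ring
    by_cases h1 : x < p * 2 ^ k
    · have h2 : x < p * 2 ^ (k + 1) := by omega
      have h3 : ¬ (x ≥ p * 2 ^ k) := by omega
      simp [h1, h2, h3]
    · have h3 : x ≥ p * 2 ^ k := by omega
      have hmod : (x - p * 2 ^ k) % p = x % p := Nat.sub_mul_mod h3
      rw [hmod]
      by_cases h2 : x < p * 2 ^ (k + 1)
      · have h4 : x - p * 2 ^ k < p * 2 ^ k := by omega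
        simp [h1, h2, h3, h4]
      · have h4 : ¬ (x - p * 2 ^ k < p * 2 ^ k) := by omega
        simp [h1, h2, h4]

lemma okp_mod (p x s : ℕ) (hxs : x ≤ s) : okp p (x % p) (s - x % p) = okp p x (s - x) := by
  unfold okp
  have h1 : x % p ≡ x [MOD p] := Nat.mod_modEq x p
  have h2 : s - x % p ≡ s - x [MOD p] := by
    have hle : x % p ≤ x := Nat.mod_le x p
    have : s - x % p = (s - x) + p * (x / p) := by
      have := Nat.mod_add_div x p
      omega
    rw [this]
    exact (Nat.modEq_iff_dvd' (by omega)).2 (by simp) |>.symm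
  have h3 : x % p * (x % p) + (s - x % p) * (s - x % p) ≡ x * x + (s - x) * (s - x) [MOD p] :=
    (h1.mul h1).add (h2.mul h2)
  have h4 : (x % p * (x % p) + (s - x % p) * (s - x % p)) % p = (x * x + (s - x) * (s - x)) % p := h3
  rw [h4]

lemma testBit_maskp (p k s x : ℕ) (hp : 0 < p) (hx : x < p * 2 ^ k) (hxs : x ≤ s) :
    (maskp p k s).testBit x = okp p x (s - x) := by
  unfold maskp
  rw [testBit_dbl p _ (fun i hi => by rw [testBit_pat]; simp; intro h; omega) k x, testBit_pat]
  have h1 : x % p < p := Nat.mod_lt x hp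
  simp [hx, h1, okp_mod p x s hxs]

lemma testBit_A (s x : ℕ) (hx : x < 196608) (hxs : x ≤ s) :
    (A s).testBit x = aliveN x (s - x) := by
  unfold A aliveN
  simp only [Nat.testBit_and]
  rw [testBit_maskp 2 17 s x (by norm_num) (by norm_num; omega) hxs,
    testBit_maskp 3 16 s x (by norm_num) (by norm_num; omega) hxs,
    testBit_maskp 5 16 s x (by norm_num) (by norm_num; omega) hxs,
    testBit_maskp 13 14 s x (by norm_num) (by norm_num; omega) hxs,
    testBit_maskp 17 14 s x (by norm_num) (by norm_num; omega) hxs,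
    testBit_maskp 29 13 s x (by norm_num) (by norm_num; omega) hxs]

end Vale.Agent.P015.Mono
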