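import Mathlib
import Vale.Agent.P015.MonoMask

namespace Vale.Agent.P015.Mono

def stepR (s r1 r2 : ℕ) : ℕ := A s &&& (r1 ||| (r1 >>> 1) ||| (r1 >>> 2) ||| (r2 >>> 2))

def Wd : ℕ := 193492
def s0 : ℕ := 384541

/-- level (value of `x+y`) at depth `j`. -/
def lev (j : ℕ) : ℕ := s0 - 2 * j

def run : ℕ → ℕ × ℕ
  | 0 => (2 ^ Wd - 1, 2 ^ Wd - 1)
  | j + 1 => (stepR (lev (j + 2)) (run j).1 (run j).2, (run j).1)

/-- `G j x`: the cell `(x, lev j - x)` could be the start of a monotone walk in the sieved set
reaching depth `≤ 1`. -/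
def G : ℕ → ℕ → Prop
  | 0, _ => True
  | 1, _ => True
  | j + 2, x => aliveN x (lev (j + 2) - x) = true ∧
      (G (j + 1) x ∨ G (j + 1) (x + 1) ∨ G (j + 1) (x + 2) ∨ G j (x + 2))

lemma run_sound (j : ℕ) :
    (∀ x, x + 2 * (j + 1) < Wd → G (j + 1) x → (run j).1.testBit x = true) ∧
    (∀ x, x + 2 * j < Wd → G j x → (run j).2.testBit x = true) := by
  induction j with
  | zero =>
    constructor
    · intro x hx _
      simp only [run, Nat.testBit_two_pow_sub_one]
      simp; omega
    · intro x hx _
      simp only [run, Nat.testBit_two_pow_sub_one]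
      simp; omega
  | succ j ih =>
    obtain ⟨ih1, ih2⟩ := ih
    refine ⟨?_, ?_⟩
    · intro x hx hG
      obtain ⟨hal, hnb⟩ := hG
      have hW : Wd = 193492 := rfl
      have hlev : lev (j + 2) = 384541 - 2 * (j + 2) := rfl
      simp only [run, stepR, Nat.testBit_and, Nat.testBit_or, Nat.testBit_shiftRight]
      rw [testBit_A _ _ (by omega) (by omega), hal]
      rcases hnb with h | h | h | h
      · rw [ih1 x (by omega) h]; simp
      · have := ih1 (x + 1) (by omega) h
        rw [Nat.add_comm x 1] at this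
        rw [this]; simp
      · have := ih1 (x + 2) (by omega) h
        rw [Nat.add_comm x 2] at this
        rw [this]; simp
      · have := ih2 (x + 2) (by omega) h
        rw [Nat.add_comm x 2] at this
        rw [this]; simp
    · intro x hx hG
      simp only [run]
      exact ih1 x hx hG

set_option maxRecDepth 100000 in
theorem run_final : (run 609).1 % 2 ^ 192270 = 0 ∧ (run 609).2 % 2 ^ 192270 = 0 := by
  decide +kernel

lemma not_G_610 (x : ℕ) (hx : x < 192270) : ¬ G 610 x := by
  intro h
  have h1 := (run_sound 609).1 x (by have : Wd = 193492 := rfl; omega) h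
  have h2 : ((run 609).1 % 2 ^ 192270).testBit x = true := by
    rw [Nat.testBit_mod_two_pow, h1]; simp [hx]
  rw [run_final.1] at h2
  simp at h2

lemma not_G_609 (x : ℕ) (hx : x < 192270) : ¬ G 609 x := by
  intro h
  have h1 := (run_sound 609).2 x (by have : Wd = 193492 := rfl; omega) h
  have h2 : ((run 609).2 % 2 ^ 192270).testBit x = true := by
    rw [Nat.testBit_mod_two_pow, h1]; simp [hx]
  rw [run_final.2] at h2
  simp at h2

end Vale.Agent.P015.Mono
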