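import Mathlib
import Vale.Agent.P015.MonoRun

namespace Vale.Agent.P015.Mono

/-- `x + i y` survives the sieve by the rational primes 2,3,5,13,17,29. -/
def aliveZ (x y : ℤ) : Prop := ∀ p : ℕ, p ∈ [2, 3, 5, 13, 17, 29] → ¬ ((p : ℤ) ∣ x ^ 2 + y ^ 2)

lemma aliveZ_translate {x y : ℤ} (c d : ℤ) (h : aliveZ x y) :
    aliveZ (x + 192270 * c) (y + 192270 * d) := by
  intro p hp hdvd
  apply h p hp
  have hpQ : (p : ℤ) ∣ 192270 := by
    simp only [List.mem_cons, List.mem_nil_iff, or_false] at hp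
    rcases hp with rfl | rfl | rfl | rfl | rfl | rfl <;> norm_num
  have hdiff : (p : ℤ) ∣ (x + 192270 * c) ^ 2 + (y + 192270 * d) ^ 2 - (x ^ 2 + y ^ 2) := by
    have : (x + 192270 * c) ^ 2 + (y + 192270 * d) ^ 2 - (x ^ 2 + y ^ 2)
        = 192270 * (2 * x * c + 192270 * c ^ 2 + 2 * y * d + 192270 * d ^ 2) := by ring
    rw [this]
    exact Dvd.dvd.mul_right hpQ _
  have := dvd_sub hdvd hdiff
  simpa using this

lemma okp_of_not_dvd (p x y : ℕ) (h : ¬ ((p : ℤ) ∣ (x : ℤ) ^ 2 + (y : ℤ) ^ 2)) :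
    okp p x y = true := by
  unfold okp
  simp only [bne_iff_ne, ne_eq]
  intro h0
  apply h
  have : p ∣ x * x + y * y := Nat.dvd_of_mod_eq_zero h0
  have h2 : ((p : ℕ) : ℤ) ∣ ((x * x + y * y : ℕ) : ℤ) := Int.natCast_dvd_natCast.2 this
  push_cast at h2
  have h3 : (x : ℤ) ^ 2 + (y : ℤ) ^ 2 = (x : ℤ) * x + (y : ℤ) * y := by ring
  rw [h3]; exact h2

lemma aliveN_of_aliveZ (x y : ℕ) (h : aliveZ (x : ℤ) (y : ℤ)) : aliveN x y = true := by
  unfold aliveN
  rw [okp_of_not_dvd 2 x y (h 2 (by simp)), okp_of_not_dvd 3 x y (h 3 (by simp)),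
    okp_of_not_dvd 5 x y (h 5 (by simp)), okp_of_not_dvd 13 x y (h 13 (by simp)),
    okp_of_not_dvd 17 x y (h 17 (by simp)), okp_of_not_dvd 29 x y (h 29 (by simp))]
  rfl

/-- the four admissible steps. -/
def Step (a b : ℤ × ℤ) : Prop :=
  (b.1 = a.1 + 1 ∧ b.2 = a.2 + 1) ∨ (b.1 = a.1 + 2 ∧ b.2 = a.2) ∨ (b.1 = a.1 ∧ b.2 = a.2 + 2) ∨
    (b.1 = a.1 + 2 ∧ b.2 = a.2 + 2)

def MonoWalk (w : ℕ → ℤ × ℤ) : Prop :=
  (∀ k, aliveZ (w k).1 (w k).2) ∧ ∀ k, Step (w k) (w (k + 1))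

lemma MonoWalk.tail {w : ℕ → ℤ × ℤ} (h : MonoWalk w) (m : ℕ) : MonoWalk (fun k => w (k + m)) := by
  refine ⟨fun k => h.1 (k + m), fun k => ?_⟩
  have := h.2 (k + m)
  have e : k + 1 + m = k + m + 1 := by ring
  simp only [e]
  exact this

lemma walk_G_aux (j : ℕ) :
    (∀ (x : ℕ) (w : ℕ → ℤ × ℤ), MonoWalk w → (w 0).1 = x → (w 0).1 + (w 0).2 = lev j →
      x + 2 * j < Wd → G j x) ∧
    (∀ (x : ℕ) (w : ℕ → ℤ × ℤ), MonoWalk w → (w 0).1 = x → (w 0).1 + (w 0).2 = lev (j + 1) →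
      x + 2 * (j + 1) < Wd → G (j + 1) x) := by
  induction j with
  | zero => exact ⟨fun _ _ _ _ _ _ => trivial, fun _ _ _ _ _ _ => trivial⟩
  | succ j ih =>
    obtain ⟨ih0, ih1⟩ := ih
    refine ⟨ih1, ?_⟩
    intro x w hw hx hsum hlt
    have hW : Wd = 193492 := rfl
    have hl2 : lev (j + 1 + 1) = 384541 - 2 * (j + 1 + 1) := rfl
    have hl1 : lev (j + 1) = 384541 - 2 * (j + 1) := rfl
    have hl0 : lev j = 384541 - 2 * j := rfl
    have hl2z : ((lev (j + 1 + 1) : ℕ) : ℤ) = 384541 - 2 * ((j : ℤ) + 1 + 1) := by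
      rw [hl2]; omega
    have hl1z : ((lev (j + 1) : ℕ) : ℤ) = 384541 - 2 * ((j : ℤ) + 1) := by
      rw [hl1]; omega
    have hl0z : ((lev j : ℕ) : ℤ) = 384541 - 2 * (j : ℤ) := by
      rw [hl0]; omega
    have hy : (w 0).2 = ((lev (j + 1 + 1) - x : ℕ) : ℤ) := by
      have : x ≤ lev (j + 1 + 1) := by omega
      rw [Nat.cast_sub this]
      omega
    refine ⟨?_, ?_⟩
    · apply aliveN_of_aliveZ
      have := hw.1 0
      rw [hx, hy] at this
      exact this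
    · have ht := hw.tail 1
      rcases hw.2 0 with ⟨h1, h2⟩ | ⟨h1, h2⟩ | ⟨h1, h2⟩ | ⟨h1, h2⟩
      · right; left
        apply ih1 (x + 1) _ ht
        · simp only [zero_add]; rw [h1, hx]; push_cast; ring
        · simp only [zero_add]; rw [h1, h2, hl1z]; omega
        · omega
      · right; right; left
        apply ih1 (x + 2) _ ht
        · simp only [zero_add]; rw [h1, hx]; push_cast; ring
        · simp only [zero_add]; rw [h1, h2, hl1z]; omega
        · omega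
      · left
        apply ih1 x _ ht
        · simp only [zero_add]; rw [h1, hx]
        · simp only [zero_add]; rw [h1, h2, hl1z]; omega
        · omega
      · right; right; right
        apply ih0 (x + 2) _ ht
        · simp only [zero_add]; rw [h1, hx]; push_cast; ring
        · simp only [zero_add]; rw [h1, h2, hl0z]; omega
        · omega

lemma walk_G (j x : ℕ) (w : ℕ → ℤ × ℤ) (hw : MonoWalk w) (hx : (w 0).1 = x)
    (hsum : (w 0).1 + (w 0).2 = lev j) (hlt : x + 2 * j < Wd) : G j x :=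
  (walk_G_aux j).1 x w hw hx hsum hlt

end Vale.Agent.P015.Mono
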