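import Mathlib
import Vale.Agent.P015.MonoWalk

namespace Vale.Agent.P015.Mono

lemma aliveZ_odd {x y : ℤ} (h : aliveZ x y) : (x + y) % 2 = 1 := by
  have h2 := h 2 (by simp)
  by_contra hne
  apply h2
  have he : (x + y) % 2 = 0 := by omega
  have hd : (2 : ℤ) ∣ x + y := Int.dvd_of_emod_eq_zero he
  obtain ⟨c, hc⟩ := hd
  refine ⟨2 * c ^ 2 - x * y, ?_⟩
  have : x ^ 2 + y ^ 2 = (x + y) ^ 2 - 2 * (x * y) := by ring
  rw [this, hc]
  push_cast
  ring

lemma MonoWalk.translate {w : ℕ → ℤ × ℤ} (h : MonoWalk w) (c d : ℤ) :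
    MonoWalk (fun k => ((w k).1 + 192270 * c, (w k).2 + 192270 * d)) := by
  refine ⟨fun k => aliveZ_translate c d (h.1 k), fun k => ?_⟩
  rcases h.2 k with ⟨h1, h2⟩ | ⟨h1, h2⟩ | ⟨h1, h2⟩ | ⟨h1, h2⟩
  · left; exact ⟨by show (w (k + 1)).1 + _ = (w k).1 + _ + 1; rw [h1]; ring,
      by show (w (k + 1)).2 + _ = (w k).2 + _ + 1; rw [h2]; ring⟩
  · right; left; exact ⟨by show (w (k + 1)).1 + _ = (w k).1 + _ + 2; rw [h1]; ring,
      by show (w (k + 1)).2 + _ = (w k).2 + _; rw [h2]⟩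
  · right; right; left; exact ⟨by show (w (k + 1)).1 + _ = (w k).1 + _; rw [h1],
      by show (w (k + 1)).2 + _ = (w k).2 + _ + 2; rw [h2]; ring⟩
  · right; right; right; exact ⟨by show (w (k + 1)).1 + _ = (w k).1 + _ + 2; rw [h1]; ring,
      by show (w (k + 1)).2 + _ = (w k).2 + _ + 2; rw [h2]; ring⟩

theorem no_monoWalk : ¬ ∃ w : ℕ → ℤ × ℤ, MonoWalk w := by
  rintro ⟨w, hw⟩
  set σ : ℕ → ℤ := fun k => (w k).1 + (w k).2 with hσ
  have hstep : ∀ k, σ (k + 1) = σ k + 2 ∨ σ (k + 1) = σ k + 4 := by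
    intro k
    simp only [hσ]
    rcases hw.2 k with ⟨h1, h2⟩ | ⟨h1, h2⟩ | ⟨h1, h2⟩ | ⟨h1, h2⟩
    · left; rw [h1, h2]; ring
    · left; rw [h1, h2]; ring
    · left; rw [h1, h2]; ring
    · right; rw [h1, h2]; ring
  have hodd : ∀ k, σ k % 2 = 1 := fun k => aliveZ_odd (hw.1 k)
  have hgrow : ∀ k : ℕ, σ 0 + 2 * (k : ℤ) ≤ σ k := by
    intro k
    induction k with
    | zero => simp
    | succ k ih =>
      rcases hstep k with h | h <;> (rw [h]; push_cast; omega)
  set m : ℤ := |σ 0| + 1 with hm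
  set T : ℤ := 383321 + 192270 * m with hT
  have hm0 : σ 0 < m := by
    have := le_abs_self (σ 0)
    omega
  have hm1 : 1 ≤ m := by
    have := abs_nonneg (σ 0)
    omega
  have hT0 : σ 0 < T := by
    rw [hT]; nlinarith
  have hex : ∃ k, T ≤ σ k := by
    refine ⟨(T - σ 0).toNat, ?_⟩
    have h1 := hgrow (T - σ 0).toNat
    have h2 : ((T - σ 0).toNat : ℤ) = T - σ 0 := Int.toNat_of_nonneg (by omega)
    rw [h2] at h1
    omega
  classical
  set k1 := Nat.find hex with hk1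
  have hk1T : T ≤ σ k1 := Nat.find_spec hex
  have hk10 : k1 ≠ 0 := by
    intro h
    rw [h] at hk1T
    omega
  obtain ⟨k0, hk0⟩ := Nat.exists_eq_succ_of_ne_zero hk10
  have hlt : ¬ T ≤ σ k0 := Nat.find_min hex (by omega)
  have hk1' : σ k1 = σ k0 + 2 ∨ σ k1 = σ k0 + 4 := by
    rw [hk0]; exact hstep k0
  have hTodd : T % 2 = 1 := by rw [hT]; omega
  have hcase : σ k1 = T ∨ σ k1 = T + 2 := by
    have h1 := hodd k1
    have h0 := hodd k0
    omega
  -- translation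
  set a : ℤ := (w k1).1 with ha
  set u : ℤ := a / 192270 with hu
  set x : ℤ := a % 192270 with hx
  have hx0 : 0 ≤ x := Int.emod_nonneg _ (by norm_num)
  have hxQ : x < 192270 := Int.emod_lt_of_pos _ (by norm_num)
  have hax : a = 192270 * u + x := (Int.mul_ediv_add_emod a 192270).symm
  have hw' : MonoWalk (fun k => ((w (k + k1)).1 + 192270 * (-u), (w (k + k1)).2 + 192270 * (u - m))) :=
    (hw.tail k1).translate (-u) (u - m)
  obtain ⟨xn, hxn⟩ : ∃ xn : ℕ, (xn : ℤ) = x := ⟨x.toNat, Int.toNat_of_nonneg hx0⟩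
  have hxnQ : xn < 192270 := by omega
  have hfst : ((fun k => ((w (k + k1)).1 + 192270 * (-u), (w (k + k1)).2 + 192270 * (u - m))) 0).1
      = (xn : ℤ) := by
    simp only [zero_add]
    rw [hxn, ← ha]
    omega
  have hsum : ((fun k => ((w (k + k1)).1 + 192270 * (-u), (w (k + k1)).2 + 192270 * (u - m))) 0).1 +
      ((fun k => ((w (k + k1)).1 + 192270 * (-u), (w (k + k1)).2 + 192270 * (u - m))) 0).2
      = σ k1 - 192270 * m := by
    simp only [zero_add, hσ]
    ring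
  have hW : Wd = 193492 := rfl
  rcases hcase with hc | hc
  · have hl : ((lev 610 : ℕ) : ℤ) = σ k1 - 192270 * m := by
      have : lev 610 = 383321 := rfl
      rw [this, hc, hT]; push_cast; ring
    exact not_G_610 xn hxnQ (walk_G 610 xn _ hw' hfst (by rw [hsum, hl]) (by omega))
  · have hl : ((lev 609 : ℕ) : ℤ) = σ k1 - 192270 * m := by
      have : lev 609 = 383323 := rfl
      rw [this, hc, hT]; push_cast; ring
    exact not_G_609 xn hxnQ (walk_G 609 xn _ hw' hfst (by rw [hsum, hl]) (by omega))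

end Vale.Agent.P015.Mono
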