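import Mathlib
import Vale.Agent.P015.MonoNoWalk

namespace Vale.Agent.P015.Mono

open GaussianInt

lemma norm_eq_sq (z : GaussianInt) : z.norm = z.re ^ 2 + z.im ^ 2 := by
  rw [Zsqrtd.norm_def]; ring

lemma prime_alive (z : GaussianInt) (hz : Prime z) (hn : 841 < z.norm) : aliveZ z.re z.im := by
  intro p hp hdvd
  rw [← norm_eq_sq] at hdvd
  have hp29 : (p : ℤ) * p ≤ 841 ∧ 2 ≤ (p : ℤ) := by
    simp only [List.mem_cons, List.mem_nil_iff, or_false] at hp
    rcases hp with rfl | rfl | rfl | rfl | rfl | rfl <;> norm_num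
  set P : GaussianInt := ((p : ℤ) : GaussianInt) with hP
  have hnP : P.norm = (p : ℤ) * p := Zsqrtd.norm_intCast _
  by_cases hzp : z ∣ P
  · obtain ⟨t, ht⟩ := hzp
    have h1 : P.norm = z.norm * t.norm := by rw [ht, Zsqrtd.norm_mul]
    have h2 : z.norm ∣ (p : ℤ) * p := by rw [← hnP, h1]; exact Dvd.intro _ rfl
    have h3 : z.norm ≤ (p : ℤ) * p := Int.le_of_dvd (by nlinarith [hp29.2]) h2
    omega
  · have hc : IsCoprime z P := (hz.irreducible.coprime_iff_not_dvd).2 hzp
    have hc2 : IsCoprime (star z) P := by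
      have := hc.map (starRingEnd GaussianInt)
      have hs : (starRingEnd GaussianInt) P = P := by
        rw [hP]
        simp
      rw [hs] at this
      exact this
    have hc3 : IsCoprime (z * star z) P := hc.mul_left hc2
    rw [← Zsqrtd.norm_eq_mul_conj] at hc3
    have hd : P ∣ ((z.norm : ℤ) : GaussianInt) := (Zsqrtd.intCast_dvd_intCast _ _).2 hdvd
    have hu : IsUnit P := hc3.isUnit_of_dvd' hd (dvd_refl P)
    have h1 : P.norm = 1 := (Zsqrtd.norm_eq_one_iff' (by norm_num) P).2 hu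
    rw [hnP] at h1
    nlinarith [hp29.2]

lemma step_class (da db : ℤ) (h0a : 0 ≤ da) (h0b : 0 ≤ db) (hne : ¬ (da = 0 ∧ db = 0))
    (hlt : da ^ 2 + db ^ 2 < 10) (hpar : (da + db) % 2 = 0) :
    (da = 1 ∧ db = 1) ∨ (da = 2 ∧ db = 0) ∨ (da = 0 ∧ db = 2) ∨ (da = 2 ∧ db = 2) := by
  have ha3 : da ≤ 3 := by nlinarith
  have hb3 : db ≤ 3 := by nlinarith
  interval_cases da <;> interval_cases db <;> simp_all

theorem no_monotone_walk : ¬ ∃ z : ℕ → GaussianInt, Function.Injective z ∧ (∀ n, Prime (z n)) ∧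
    (∀ n, ‖((z (n + 1) : ℂ) - (z n : ℂ))‖ < Real.sqrt 10) ∧
    (Monotone (fun n => (z n).re) ∨ Antitone (fun n => (z n).re)) ∧
    (Monotone (fun n => (z n).im) ∨ Antitone (fun n => (z n).im)) := by
  rintro ⟨z, hinj, hprime, hstep, hre, him⟩
  obtain ⟨e1, he1, hmono1⟩ : ∃ e1 : ℤ, e1 ^ 2 = 1 ∧ ∀ n, e1 * (z n).re ≤ e1 * (z (n + 1)).re := by
    rcases hre with h | h
    · exact ⟨1, by norm_num, fun n => by simpa using h (Nat.le_succ n)⟩
    · exact ⟨-1, by norm_num, fun n => by simpa using h (Nat.le_succ n)⟩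
  obtain ⟨e2, he2, hmono2⟩ : ∃ e2 : ℤ, e2 ^ 2 = 1 ∧ ∀ n, e2 * (z n).im ≤ e2 * (z (n + 1)).im := by
    rcases him with h | h
    · exact ⟨1, by norm_num, fun n => by simpa using h (Nat.le_succ n)⟩
    · exact ⟨-1, by norm_num, fun n => by simpa using h (Nat.le_succ n)⟩
  set a : ℕ → ℤ := fun n => e1 * (z n).re with ha
  set b : ℕ → ℤ := fun n => e2 * (z n).im with hb
  have hnorm : ∀ n, a n ^ 2 + b n ^ 2 = (z n).norm := by
    intro n
    simp only [ha, hb, norm_eq_sq, mul_pow, he1, he2, one_mul]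
  have hdn : ∀ n, (a (n + 1) - a n) ^ 2 + (b (n + 1) - b n) ^ 2 < 10 := by
    intro n
    have h1 : ((z (n + 1) - z n).norm : ℝ) < 10 := by
      rw [GaussianInt.intCast_real_norm, Complex.normSq_eq_norm_sq, GaussianInt.toComplex_sub]
      have h2 := hstep n
      have h3 : ‖((z (n + 1) : ℂ) - (z n : ℂ))‖ ^ 2 < (Real.sqrt 10) ^ 2 :=
        pow_lt_pow_left₀ h2 (_root_.norm_nonneg _) (by norm_num)
      rwa [Real.sq_sqrt (by norm_num)] at h3
    have h4 : (z (n + 1) - z n).norm < 10 := by exact_mod_cast h1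
    have h5 : (a (n + 1) - a n) ^ 2 + (b (n + 1) - b n) ^ 2 = (z (n + 1) - z n).norm := by
      simp only [ha, hb, norm_eq_sq, Zsqrtd.re_sub, Zsqrtd.im_sub]
      have e1' : (e1 * (z (n + 1)).re - e1 * (z n).re) ^ 2 = e1 ^ 2 * ((z (n + 1)).re - (z n).re) ^ 2 := by
        ring
      have e2' : (e2 * (z (n + 1)).im - e2 * (z n).im) ^ 2 = e2 ^ 2 * ((z (n + 1)).im - (z n).im) ^ 2 := by
        ring
      rw [e1', e2', he1, he2]; ring
    rw [h5]; exact h4
  have hne : ∀ n, ¬ (a (n + 1) - a n = 0 ∧ b (n + 1) - b n = 0) := by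
    rintro n ⟨h1, h2⟩
    have he1' : e1 ≠ 0 := by intro h; rw [h] at he1; norm_num at he1
    have he2' : e2 ≠ 0 := by intro h; rw [h] at he2; norm_num at he2
    have h3 : (z (n + 1)).re = (z n).re := by
      have : e1 * (z (n + 1)).re = e1 * (z n).re := by simp only [ha] at h1; omega
      exact mul_left_cancel₀ he1' this
    have h4 : (z (n + 1)).im = (z n).im := by
      have : e2 * (z (n + 1)).im = e2 * (z n).im := by simp only [hb] at h2; omega
      exact mul_left_cancel₀ he2' this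
    have : z (n + 1) = z n := Zsqrtd.ext h3 h4
    have := hinj this
    omega
  have hsig : ∀ n, a n + b n + 1 ≤ a (n + 1) + b (n + 1) := by
    intro n
    have h1 := hmono1 n
    have h2 := hmono2 n
    have h3 := hne n
    simp only [ha, hb] at h3 ⊢
    omega
  have hgrow : ∀ n : ℕ, a 0 + b 0 + (n : ℤ) ≤ a n + b n := by
    intro n
    induction n with
    | zero => simp
    | succ n ih => have := hsig n; push_cast; omega
  set n0 : ℕ := (42 - (a 0 + b 0)).toNat with hn0
  have hbig : ∀ k, 42 ≤ a (k + n0) + b (k + n0) := by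
    intro k
    have h1 := hgrow (k + n0)
    have h2 : 42 - (a 0 + b 0) ≤ (n0 : ℤ) := Int.self_le_toNat _
    push_cast at h1
    omega
  have halive : ∀ k, aliveZ (a (k + n0)) (b (k + n0)) := by
    intro k
    have h1 : 841 < (z (k + n0)).norm := by
      rw [← hnorm]
      have := hbig k
      nlinarith [sq_nonneg (a (k + n0) - b (k + n0))]
    have h2 := prime_alive _ (hprime (k + n0)) h1
    intro p hp hd
    apply h2 p hp
    rw [← norm_eq_sq, ← hnorm]
    exact hd
  apply no_monoWalk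
  refine ⟨fun k => (a (k + n0), b (k + n0)), halive, fun k => ?_⟩
  have e : k + 1 + n0 = k + n0 + 1 := by ring
  have h1 := hmono1 (k + n0)
  have h2 := hmono2 (k + n0)
  have hpar : ((a (k + n0 + 1) - a (k + n0)) + (b (k + n0 + 1) - b (k + n0))) % 2 = 0 := by
    have o1 := aliveZ_odd (halive k)
    have o2 := aliveZ_odd (halive (k + 1))
    rw [e] at o2
    omega
  have hcl := step_class (a (k + n0 + 1) - a (k + n0)) (b (k + n0 + 1) - b (k + n0))
    (by simp only [ha]; omega) (by simp only [hb]; omega) (hne _) (hdn _) hpar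
  unfold Step
  simp only [e]
  rcases hcl with ⟨c1, c2⟩ | ⟨c1, c2⟩ | ⟨c1, c2⟩ | ⟨c1, c2⟩
  · left; constructor <;> omega
  · right; left; constructor <;> omega
  · right; right; left; constructor <;> omega
  · right; right; right; constructor <;> omega

end Vale.Agent.P015.Mono
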